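import Vale.Agent.P193.Full.Core.Facts.Edges
import Vale.Agent.P193.Full.Core.Loops.Flats

/-! Edge peaks: a loop without pushes is congruent to a flat one. -/

namespace Vale.Agent.P193.Core.Loops

open Vale.Agent.P193.Loops Facts

set_option linter.unusedSectionVars false

variable {d : Data} [DecidableEq d.M.A] {hG : Good d}

/-- A letter that is no push. -/
def NoPush (i : Letter d) : Prop := ∀ P, i.1 ≠ .push P

theorem flat_inner (i : Fin d.n) : Flat (fw (.inner i) : Letter d) :=
  ⟨fun _ => by simp [fw], fun _ => by simp [fw]⟩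

theorem flat_outer (a : OGen d × Bool) : Flat ((.outer a.1, a.2) : Letter d) :=
  ⟨fun _ => by simp, fun _ => by simp⟩

theorem flat_uL (p : Fin 3 × Bool) : Flat (uL p : Letter d) :=
  ⟨fun _ => by simp [uL], fun _ => by simp [uL]⟩

theorem flat_innerW (l : List (Fin d.n)) : ∀ i ∈ innerW l, Flat i := by
  intro i hi
  obtain ⟨j, -, rfl⟩ := List.mem_map.1 hi
  exact flat_inner j

theorem flat_outerW (l : List (OGen d × Bool)) : ∀ i ∈ outerW l, Flat i := by
  intro i hi
  obtain ⟨a, -, rfl⟩ := List.mem_map.1 hi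
  exact flat_outer a

theorem uval_mem (p : Fin 3 × Bool) (i : Fin d.n) : uval p (d.gen i) ∈ ruleElts := by
  obtain ⟨j, _ | _⟩ := p
  · exact Or.inl ⟨i, j, Or.inr rfl⟩
  · exact Or.inl ⟨i, j, Or.inl rfl⟩

theorem uval_mul (p : Fin 3 × Bool) (a b : Inner d) :
    uval p (a * b) = if p.2 then uval p a * uval p b else uval p b * uval p a := by
  obtain ⟨j, _ | _⟩ := p <;> simp [uval, proj_mul]

/-- A forward component past a guessed letter. -/
theorem sub_letter_up (i : Fin d.n) (j : Fin 3) :
    Sub hG [fw (.edge ⟨_, Edge.OK.letter i⟩), uL (j, true)]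
      (innerW (iw hG (uval (j, true) (d.gen i))) ++
        [uL (j, true), fw (.edge ⟨_, Edge.OK.letter i⟩)]) := by
  rintro x y ⟨z, hz, z', hz', rfl⟩
  obtain ⟨σ, b, w, g, t, rfl, rfl⟩ := (run_edge _ _ _).1 hz
  obtain ⟨-, hb, rfl⟩ := (run_u _ _ _).1 hz'
  refine Sys.run_append.2 ⟨_, (run_innerW hG _ _ _).2 rfl, _, (run_u _ _ _).2 ⟨rfl, hb, rfl⟩, _,
    (run_edge _ _ _).2 ⟨σ, b, w, _, t, rfl, ?_⟩, rfl⟩
  rw [iw_prod]
  simp [guessVal, uval_mul, mul_assoc]

/-- A backward component past a guessed letter. -/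
theorem sub_letter_down (i : Fin d.n) (j : Fin 3) :
    Sub hG [fw (.edge ⟨_, Edge.OK.letter i⟩), uL (j, false)]
      (uL (j, false) :: (innerW (iw hG (uval (j, false) (d.gen i))) ++
        [fw (.edge ⟨_, Edge.OK.letter i⟩)])) := by
  rintro x y ⟨z, hz, z', hz', rfl⟩
  obtain ⟨σ, b, w, g, t, rfl, rfl⟩ := (run_edge _ _ _).1 hz
  obtain ⟨-, hb, rfl⟩ := (run_u _ _ _).1 hz'
  refine ⟨_, (run_u _ _ _).2 ⟨rfl, hb, rfl⟩, Sys.run_append.2 ⟨_, (run_innerW hG _ _ _).2 rfl,
    Sys.run_singleton.2 ((run_edge _ _ _).2 ⟨σ, b, w, _, t, rfl, ?_⟩)⟩⟩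
  rw [iw_prod]
  simp [guessVal, uval_mul, mul_assoc]

variable {Df : Set (Point d) → Prop}
  {R : Set (Point d) → List (Letter d) → List (Letter d) → Prop} (C : Ctx hG Df R)

include C

theorem edge_past_innerW (e : {e : Edge d // e.OK}) (l : List (Fin d.n)) {B : Set (Point d)}
    (hB : Df B) (hd : B ⊆ (sys hG).dom ([fw (.edge e)] ++ innerW l)) :
    Rw (sys hG) Df R B ([fw (.edge e)] ++ innerW l) (innerW l ++ [fw (.edge e)]) := by
  have e1 : innerW l = l.flatMap fun i => [fw (Atom.inner i)] := by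
    rw [innerW, ← List.flatMap_pure_eq_map]; rfl
  rw [e1] at hd ⊢
  exact Rw.slide' C.laws _ (fun i => [fw (.inner i)]) (fun i B' hB' hd' =>
    C.use (small_le (by simp)) (small_le (by simp)) (sub_edge_inner i e) hB' hd') hB l hd

/-- An edge moves past one flat letter. -/
theorem edge_past_letter (e : {e : Edge d // e.OK}) (i : Letter d) (hi : Flat i)
    {B : Set (Point d)} (hB : Df B) (hd : B ⊆ (sys hG).dom [fw (.edge e), i]) :
    ∃ s, (∀ k ∈ s, Flat k) ∧
      Rw (sys hG) Df R B [fw (.edge e), i] (s ++ [fw (.edge e)]) := by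
  have hd' := (Sys.dom_append (K := sys hG) (u := [fw (.edge e)]) (v := [i])).1 hd
  obtain ⟨a, b⟩ := i
  cases a with
  | edge e' => exact absurd rfl (hi.1 e')
  | push P => exact absurd rfl (hi.2 P)
  | gid k =>
    exact ⟨[], by simp, Rw.front (u := [(.gid k, b)]) (v := []) C.laws hB hd'.1
      (drop_test C k b (C.laws.wimg_df hB) hd'.2)⟩
  | outer a =>
    exact ⟨[(.outer a, b)], List.forall_mem_singleton.2 (flat_outer (a, b)),
      C.use (small_le (by simp)) (small_le (by simp)) (sub_edge_outer (a, b) e) hB hd⟩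
  | inner i =>
    cases b with
    | true =>
      exact ⟨[fw (.inner i)], List.forall_mem_singleton.2 (flat_inner i),
        C.use (small_le (by simp)) (small_le (by simp)) (sub_edge_inner i e) hB hd⟩
    | false =>
      have h1 : Rw (sys hG) Df R B ([fw (.edge e)] ++ [bw (.inner i)])
          ([fw (.edge e)] ++ innerW (iw hG (d.gen i)⁻¹)) :=
        Rw.front C.laws hB hd'.1 (inner_bw C i (C.laws.wimg_df hB))
      exact ⟨_, flat_innerW _, h1.trans C.laws (edge_past_innerW C e _ hB h1.right)⟩
  | u j =>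
    by_cases hk : ∀ l, e.1.kind ≠ .letter l
    · exact ⟨[], by simp, C.use (v := [fw (.edge e)]) (small_le (by simp)) (small_le (by simp))
        (sub_exit_u (j, b) e (Or.inr hk)) hB hd⟩
    · push Not at hk
      obtain ⟨l, hl⟩ := hk
      obtain ⟨e, he⟩ := e
      obtain rfl := edge_letter_eq he hl
      have hlen := iw_length (hG := hG) (uval_mem (j, b) l)
      cases b with
      | true =>
        refine ⟨innerW (iw hG (uval (j, true) (d.gen l))) ++ [uL (j, true)], ?_, ?_⟩
        · simp only [List.forall_mem_append, List.forall_mem_singleton]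
          exact ⟨flat_innerW _, flat_uL _⟩
        · rw [List.append_assoc]
          exact C.use (small_le (by simp)) (by simp [innerW]; omega) (sub_letter_up l j) hB hd
      | false =>
        refine ⟨uL (j, false) :: innerW (iw hG (uval (j, false) (d.gen l))), ?_, ?_⟩
        · exact List.forall_mem_cons.2 ⟨flat_uL _, flat_innerW _⟩
        · exact C.use (small_le (by simp)) (by simp [innerW]; omega) (sub_letter_down l j) hB hd

/-- An edge moves past a flat word. -/
theorem edge_past_flat (e : {e : Edge d // e.OK}) : ∀ (t : List (Letter d)), (∀ i ∈ t, Flat i) →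
    ∀ {B : Set (Point d)}, Df B → B ⊆ (sys hG).dom ([fw (.edge e)] ++ t) →
      ∃ t', (∀ i ∈ t', Flat i) ∧
        Rw (sys hG) Df R B ([fw (.edge e)] ++ t) (t' ++ [fw (.edge e)]) := by
  intro t
  induction t with
  | nil =>
    intro _ B hB hd
    exact ⟨[], by simp, by simpa using Rw.refl C.laws hB (by simpa using hd)⟩
  | cons i t ih =>
    intro ht B hB hd
    obtain ⟨hi, ht⟩ := List.forall_mem_cons.1 ht
    rw [show [fw (.edge e)] ++ i :: t = [fw (.edge e), i] ++ t from rfl] at hd ⊢
    obtain ⟨s, hs, h1⟩ := edge_past_letter C e i hi hB (Sys.dom_append.1 hd).1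
    have h2 := h1.back C.laws hd
    have hd2 := h2.right
    rw [List.append_assoc] at hd2
    obtain ⟨t', ht', h3⟩ := ih ht (C.laws.wimg_df (w := s) hB) (Sys.dom_append.1 hd2).2
    refine ⟨s ++ t', fun k hk => (List.mem_append.1 hk).elim (hs k) (ht' k), h2.trans C.laws ?_⟩
    rw [List.append_assoc, List.append_assoc]
    exact Rw.front C.laws hB (Sys.dom_append.1 hd2).1 h3

omit C in
theorem dom_two_edges {e e' : {e : Edge d // e.OK}} (h : e ≠ e') :
    (sys hG).dom [fw (.edge e), bw (.edge e')] = ∅ := by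
  rw [Set.eq_empty_iff_forall_notMem]
  rintro x ⟨y, z, hz, z', hz', -⟩
  obtain ⟨σ, b, w, g, t, -, rfl⟩ := (run_edge _ _ _).1 hz
  obtain ⟨σ', b', w', g', t', -, he⟩ := (run_edge _ _ _).1 (show (z', _) ∈ (sys hG).g (fw (.edge e')) from hz')
  exact h (Subtype.ext (by
    simpa [Path.edges] using congrArg (fun y : Point d => y.σ.edges.head?) he))

omit C in
theorem flat_keeps_path {i : Letter d} (hi : Flat i) {x y : Point d}
    (h : (x, y) ∈ (sys hG).g i) : y.σ.edges = x.σ.edges := by
  obtain ⟨a, b⟩ := i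
  cases a with
  | edge e' => exact absurd rfl (hi.1 e')
  | push P => exact absurd rfl (hi.2 P)
  | gid k => obtain ⟨rfl, -⟩ := (run_gid k b x y).1 h; rfl
  | outer a => rw [(run_outer hG (a, b) x y).1 h]
  | u j => obtain ⟨-, -, rfl⟩ := (run_u (j, b) x y).1 h; rfl
  | inner i =>
    cases b with
    | true =>
      have h' : (x, y) ∈ gT (d.gen i) := h
      simp only [gT, Set.mem_ofPred_eq] at h'
      rw [h']
    | false =>
      have h' : (y, x) ∈ gT (d.gen i) := h
      simp only [gT, Set.mem_ofPred_eq] at h'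
      rw [h']

/-- The height by edges, on words without pushes. -/
noncomputable def innerHeight : Height (sys hG) Df R NoPush where
  μ i := match i with
    | (.edge _, true) => 1
    | (.edge _, false) => -1
    | _ => 0
  hμ := by rintro ⟨a, _ | _⟩ <;> cases a <;> simp
  size x := x.σ.edges.length
  hsize := by
    rintro ⟨a, b⟩ hok x y h
    cases a with
    | push P => exact absurd rfl (hok P)
    | edge e =>
      cases b with
      | true =>
        obtain ⟨σ, b, w, g, t, rfl, rfl⟩ := (run_edge _ _ _).1 h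
        simp [Path.edges]
      | false =>
        obtain ⟨σ, b, w, g, t, rfl, rfl⟩ := (run_edge (hG := hG) e y x).1 h
        simp [Path.edges]
    | _ =>
      rw [flat_keeps_path ⟨fun _ => by simp, fun _ => by simp⟩ h]
      cases b <;> simp
  peak := by
    intro B x t y hB hx ht hy h1 h2 hd
    have hflat : ∀ i ∈ t, Flat i := fun i hi => by
      obtain ⟨hok, h0⟩ := ht i hi
      refine ⟨fun e he => ?_, hok⟩
      obtain ⟨a, b⟩ := i
      obtain rfl : a = .edge e := he
      cases b <;> simp at h0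
    obtain ⟨ax, bx⟩ := x
    obtain ⟨ay, by'⟩ := y
    cases ax <;> cases bx <;> simp at h1
    cases ay <;> cases by' <;> simp at h2
    rename_i e e'
    rw [show ((Atom.edge e, true) : Letter d) :: (t ++ [(Atom.edge e', false)]) =
      ([fw (.edge e)] ++ t) ++ [bw (.edge e')] from rfl] at hd ⊢
    obtain ⟨t', ht', hR⟩ := edge_past_flat C e t hflat hB (Sys.dom_append.1 hd).1
    have hR' := hR.back C.laws hd
    have hd2 := hR'.right
    rw [List.append_assoc] at hd2
    refine ⟨t', fun i hi => ⟨(ht' i hi).2, ?_⟩, hR'.trans C.laws ?_⟩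
    · obtain ⟨a, b⟩ := i
      cases a with
      | edge e'' => exact absurd rfl ((ht' _ hi).1 e'')
      | _ => cases b <;> rfl
    rw [List.append_assoc]
    by_cases hee : e = e'
    · subst hee
      have hc := Rw.cancel_word C.laws (w := [fw (.edge e)]) (C.laws.wimg_df (w := t') hB)
        (Sys.dom_append (u := [fw (.edge e)]) (v := [bw (.edge e)]) |>.1 (Sys.dom_append.1 hd2).2).1
      have := Rw.front C.laws hB (Sys.dom_append.1 hd2).1 hc
      rw [List.append_nil] at this
      exact this
    · refine Rw.of_eq_empty C.laws (Set.eq_empty_iff_forall_notMem.2 fun z hz => ?_)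
      obtain ⟨y', hy'⟩ := (Sys.dom_append.1 hd2).1 hz
      have hmem := (Sys.dom_append.1 hd2).2 ⟨z, hz, hy'⟩
      rw [show ([fw (.edge e)] ++ [bw (.edge e')] : List (Letter d)) =
        [fw (.edge e), bw (.edge e')] from rfl, dom_two_edges hee] at hmem
      exact hmem

/-- A loop without pushes is trivial once the flat loops are. -/
theorem innerLoops (h : FlatLoops hG Df R) {B : Set (Point d)} {w : List (Letter d)} (hB : Df B)
    (hw : ∀ i ∈ w, NoPush i) (hloop : ∀ x ∈ B, (sys hG).Run w x x) :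
    Rw (sys hG) Df R B w [] := by
  refine (innerHeight C).loop C.laws (fun e t he ht hl => h e t he (fun i hi => ?_) hl) hB hw hloop
  obtain ⟨hok, h0⟩ := ht i hi
  refine ⟨fun e he => ?_, hok⟩
  obtain ⟨a, b⟩ := i
  obtain rfl : a = .edge e := he
  cases b <;> simp [innerHeight] at h0

end Vale.Agent.P193.Core.Loops
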