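import Vale.Agent.P193.Full.Core.Loops.Peaks.Edge

/-! Push peaks: every loop is congruent to one without pushes. -/

namespace Vale.Agent.P193.Core.Loops

open Vale.Agent.P193.Loops Facts

set_option linter.unusedSectionVars false

variable {d : Data}

/-- The nesting depth of a stack. -/
def depth : {b : Bool} → Wd d b → ℕ
  | _, .omC _ c _ => depth c + 1
  | _, .tpush c => depth c + 1
  | _, .base => 0
  | _, .theta _ _ w _ => depth w + 1
  | _, .omD _ c _ => depth c + 1
  | _, .omK _ c _ => depth c + 1

/-- The last push of a stack. -/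
def lastPush : {b : Bool} → Wd d b → Option PushK
  | _, .omC _ _ _ => some .omC
  | _, .tpush _ => some .tMap
  | _, .base => none
  | _, .theta _ _ _ _ => some .theta
  | _, .omD _ _ _ => some .omD
  | _, .omK _ _ _ => some .omK

variable [DecidableEq d.M.A] {hG : Good d}

/-- What a push does. -/
theorem push_spec {P : PushK} {x y : Point d} (h : (x, y) ∈ P.graph (d := d)) :
    y.st = .fin ∧ y.h = 1 ∧ depth y.w = depth x.w + 1 ∧ lastPush y.w = some P ∧
      (P = .theta → y.g = toInner d x.h) := by
  cases P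
  · simp only [PushK.graph, thetaG, Set.mem_ofPred_eq] at h
    subst h
    exact ⟨rfl, rfl, rfl, rfl, fun _ => rfl⟩
  · obtain ⟨s, σ, c, g, t, rfl, rfl⟩ := h
    exact ⟨rfl, rfl, rfl, rfl, nofun⟩
  · obtain ⟨s, σ, c, g, t, rfl, rfl⟩ := h
    exact ⟨rfl, rfl, rfl, rfl, nofun⟩
  · obtain ⟨σ, c, g, t, rfl, rfl⟩ := h
    exact ⟨rfl, rfl, rfl, rfl, nofun⟩
  · obtain ⟨c, g, rfl, rfl⟩ := h
    exact ⟨rfl, rfl, rfl, rfl, nofun⟩

/-- The pushes other than theta do not look at the inner coordinate. -/
theorem push_dom_g {P : PushK} (hP : P ≠ .theta) {x : Point d}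
    (hx : x ∈ (sys hG).dom [fw (.push P)]) (g : Inner d) :
    { x with g := g } ∈ (sys hG).dom [fw (.push P)] := by
  obtain ⟨y, hy⟩ := hx
  rw [Sys.run_singleton, run_push] at hy
  cases P
  · exact absurd rfl hP
  · obtain ⟨s, σ, c, g', t, rfl, -⟩ := hy
    exact ⟨_, Sys.run_singleton.2 ⟨s, σ, c, g, t, rfl, rfl⟩⟩
  · obtain ⟨s, σ, c, g', t, rfl, -⟩ := hy
    exact ⟨_, Sys.run_singleton.2 ⟨s, σ, c, g, t, rfl, rfl⟩⟩
  · obtain ⟨σ, c, g', t, rfl, -⟩ := hy
    exact ⟨_, Sys.run_singleton.2 ⟨σ, c, g, t, rfl, rfl⟩⟩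
  · obtain ⟨c, g', rfl, -⟩ := hy
    exact ⟨_, Sys.run_singleton.2 ⟨c, g, rfl, rfl⟩⟩

theorem noPush_keeps_depth {i : Letter d} (hi : NoPush i) {x y : Point d}
    (h : (x, y) ∈ (sys hG).g i) : depth y.w = depth x.w := by
  obtain ⟨a, b⟩ := i
  cases a with
  | push P => exact absurd rfl (hi P)
  | gid k => obtain ⟨rfl, -⟩ := (run_gid k b x y).1 h; rfl
  | outer a => rw [(run_outer hG (a, b) x y).1 h]
  | u j => obtain ⟨-, -, rfl⟩ := (run_u (j, b) x y).1 h; rfl
  | edge e =>
    cases b with
    | true => obtain ⟨σ, b, w, g, t, rfl, rfl⟩ := (run_edge _ _ _).1 h; rfl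
    | false => obtain ⟨σ, b, w, g, t, rfl, rfl⟩ := (run_edge (hG := hG) e y x).1 h; rfl
  | inner i =>
    cases b with
    | true =>
      have h' : (x, y) ∈ gT (d.gen i) := h
      simp only [gT, Set.mem_ofPred_eq] at h'
      rw [h']
    | false =>
      have h' : (y, x) ∈ gT (d.gen i) := h
      simp only [gT, Set.mem_ofPred_eq] at h'
      rw [h']

variable {Df : Set (Point d) → Prop}
  {R : Set (Point d) → List (Letter d) → List (Letter d) → Prop} (C : Ctx hG Df R)

include C

theorem innerW_past_outerW (l : List (Fin d.n)) (o : List (OGen d × Bool)) {B : Set (Point d)}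
    (hB : Df B) :
    Rw (sys hG) Df R B (innerW l ++ outerW o) (outerW o ++ innerW l) := by
  have e1 : outerW o = o.flatMap fun a => [((Atom.outer a.1, a.2) : Letter d)] := by
    rw [outerW, ← List.flatMap_pure_eq_map]; rfl
  have hd : B ⊆ (sys hG).dom (innerW l ++ outerW o) :=
    Sys.dom_append.2 ⟨dom_innerW l B, dom_outerW o _⟩
  rw [e1] at hd ⊢
  exact Rw.slide' C.laws _ (fun a => [(.outer a.1, a.2)]) (fun a B' hB' hd' =>
    innerW_past C _ (fun i => sub_inner_outer i a) hB' l hd') hB o hd

/-- A flat word at the final state is a translation. -/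
theorem flat_at_fin : ∀ (t : List (Letter d)), (∀ i ∈ t, Flat i) → ∀ {B : Set (Point d)}, Df B →
    (∀ x ∈ B, x.st = .fin) → B ⊆ (sys hG).dom t →
      ∃ o l, Rw (sys hG) Df R B t (outerW o ++ innerW l) := by
  intro t
  induction t with
  | nil => intro _ B hB _ hd; exact ⟨[], [], Rw.refl C.laws hB hd⟩
  | cons i t ih =>
    intro ht B hB hst hd
    obtain ⟨hi, ht'⟩ := List.forall_mem_cons.1 ht
    rw [show i :: t = [i] ++ t from rfl] at hd ⊢
    have hd1 := Sys.dom_append.1 hd
    have hW : ∀ {w : List (Letter d)}, (∀ x y, (sys hG).Run w x y → y.st = x.st) →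
        ∀ y ∈ (sys hG).wimg w B, y.st = .fin := by
      rintro w hw y ⟨x, hx, hxy⟩
      rw [hw x y hxy]; exact hst x hx
    obtain ⟨a, b⟩ := i
    cases a with
    | edge e' => exact absurd rfl (hi.1 e')
    | push P => exact absurd rfl (hi.2 P)
    | u j =>
      refine ⟨[], [], Rw.of_eq_empty C.laws (Set.eq_empty_iff_forall_notMem.2 fun x hx => ?_)⟩
      obtain ⟨y, hy⟩ := hd1.1 hx
      have h1 := ((run_u (j, b) x y).1 (Sys.run_singleton.1 hy)).1
      rw [hst x hx] at h1
      simp at h1
    | gid k =>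
      have h0 := (drop_test C k b hB hd1.1).back C.laws hd
      obtain ⟨o, l, h1⟩ := ih ht' hB hst (by simpa using h0.right)
      exact ⟨o, l, h0.trans C.laws (by simpa using h1)⟩
    | outer a =>
      obtain ⟨o, l, h1⟩ := ih ht' (C.laws.wimg_df hB) (hW fun x y h => by
        rw [(run_outer hG (a, b) x y).1 (Sys.run_singleton.1 h)]) hd1.2
      exact ⟨(a, b) :: o, l, Rw.front C.laws hB hd1.1 h1⟩
    | inner i =>
      obtain ⟨s, hs⟩ : ∃ s, Rw (sys hG) Df R B [(Atom.inner i, b)] (innerW s) := by
        cases b with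
        | true => exact ⟨[i], Rw.refl C.laws hB hd1.1⟩
        | false => exact ⟨_, inner_bw C i hB⟩
      have h0 := hs.back C.laws hd
      have hd2 := (Sys.dom_append.1 h0.right).2
      obtain ⟨o, l, h1⟩ := ih ht' (C.laws.wimg_df hB) (hW fun x y h => by
        rw [(run_innerW hG s x y).1 h]) hd2
      have h2 := h0.trans C.laws (Rw.front C.laws hB (dom_innerW s B) h1)
      refine ⟨o, s ++ l, h2.trans C.laws ?_⟩
      have e1 : innerW (s ++ l) = innerW s ++ innerW l := List.map_append
      rw [e1, ← List.append_assoc, ← List.append_assoc]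
      refine (innerW_past_outerW C s o hB).back C.laws ?_
      rw [List.append_assoc]
      exact h2.right

/-- The height by pushes. -/
noncomputable def outerHeight : Height (sys hG) Df R (fun _ => True) where
  μ i := match i with
    | (.push _, true) => 1
    | (.push _, false) => -1
    | _ => 0
  hμ := by rintro ⟨a, _ | _⟩ <;> cases a <;> simp
  size x := depth x.w
  hsize := by
    rintro ⟨a, b⟩ - x y h
    cases a with
    | push P =>
      cases b with
      | true =>
        have := (push_spec (show (x, y) ∈ P.graph from h)).2.2.1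
        simp only
        omega
      | false =>
        have := (push_spec (show (y, x) ∈ P.graph from h)).2.2.1
        simp only
        omega
    | _ =>
      rw [noPush_keeps_depth (fun _ => by simp) h]
      cases b <;> simp
  peak := by
    intro B x t y hB _ ht _ h1 h2 hd
    have hnp : ∀ i ∈ t, NoPush i := fun i hi P hP => by
      obtain ⟨-, h0⟩ := ht i hi
      obtain ⟨a, b⟩ := i
      obtain rfl : a = .push P := hP
      cases b <;> simp at h0
    obtain ⟨ax, bx⟩ := x
    obtain ⟨ay, by'⟩ := y
    cases ax <;> cases bx <;> simp at h1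
    cases ay <;> cases by' <;> simp at h2
    rename_i P Q
    rw [show ((Atom.push P, true) : Letter d) :: (t ++ [(Atom.push Q, false)]) =
      [fw (.push P)] ++ (t ++ [bw (.push Q)]) from rfl] at hd ⊢
    rcases B.eq_empty_or_nonempty with hemp | ⟨x₀, hx₀⟩
    · exact ⟨[], by simp, Rw.of_eq_empty C.laws hemp⟩
    obtain ⟨hdP, hdt⟩ := Sys.dom_append.1 hd
    set B₁ := (sys hG).wimg [fw (.push P)] B with hB₁
    have hB₁df : Df B₁ := C.laws.wimg_df hB
    have hB₁fin : ∀ z ∈ B₁, z.st = .fin ∧ z.h = 1 := by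
      rintro z ⟨p, -, hp⟩
      obtain ⟨a, b, -⟩ := push_spec (show (p, z) ∈ P.graph from Sys.run_singleton.1 hp)
      exact ⟨a, b⟩
    -- the middle becomes an inner translation
    obtain ⟨t₁, ht₁, hR₁⟩ := (innerHeight C).linear C.laws hB₁df hnp (Sys.dom_append.1 hdt).1 (by
      intro z hz
      have len : ∀ q : Point d, q.st = .fin → q.σ.edges.length = 0 := by
        rintro ⟨s, σ, b, w, g, k⟩ hq
        cases (show s = .fin from hq)
        simp [Path.edges_nil σ]
      refine ⟨len z (hB₁fin z hz).1, fun q hq => len q ?_⟩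
      obtain ⟨r, hr⟩ := (Sys.dom_append.1 hdt).2 ⟨z, hz, hq⟩
      exact (push_spec (show (r, q) ∈ Q.graph from Sys.run_singleton.1 hr)).1)
    have hfl₁ : ∀ i ∈ t₁, Flat i := fun i hi => by
      obtain ⟨hok, h0⟩ := ht₁ i hi
      refine ⟨fun e he => ?_, hok⟩
      obtain ⟨a, b⟩ := i
      obtain rfl : a = .edge e := he
      cases b <;> simp [innerHeight] at h0
    obtain ⟨o, l, hR₂⟩ := flat_at_fin C t₁ hfl₁ hB₁df (fun z hz => (hB₁fin z hz).1) hR₁.right
    have hR₃ := (hR₁.trans C.laws hR₂).back C.laws (Sys.dom_append.2 (Sys.dom_append.1 hdt))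
    -- one point of the peak
    obtain ⟨x₁, hx₁⟩ := hdP hx₀
    obtain ⟨p, hp⟩ := hR₃.right (show x₁ ∈ B₁ from ⟨x₀, hx₀, hx₁⟩)
    obtain ⟨q, hq, hqp⟩ := Sys.run_append.1 hp
    obtain ⟨r, hr, hrq⟩ := Sys.run_append.1 hq
    rw [run_outerW] at hr
    rw [run_innerW] at hrq
    obtain ⟨-, h1h, -, hPtop, hPth⟩ :=
      push_spec (show (x₀, x₁) ∈ P.graph from Sys.run_singleton.1 hx₁)
    obtain ⟨-, hQh, -, hQtop, hQth⟩ :=
      push_spec (show (p, q) ∈ Q.graph from Sys.run_singleton.1 hqp)
    subst hr hrq
    simp only [h1h, one_mul] at hQh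
    obtain rfl : P = Q := Option.some.inj (hPtop.symm.trans hQtop)
    have hR₄ : Rw (sys hG) Df R B ([fw (.push P)] ++ (t ++ [bw (.push P)]))
        (([fw (.push P)] ++ innerW l) ++ [bw (.push P)]) := by
      refine (Rw.front C.laws hB hdP hR₃).trans C.laws ?_
      rw [List.append_assoc (outerW o), List.append_assoc [fw (.push P)]]
      refine Rw.front C.laws hB hdP ?_
      have := (law_outer C hQh hB₁df).back C.laws (b := innerW l ++ [bw (.push P)])
        (by simpa [List.append_assoc] using hR₃.right)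
      simpa using this
    have hcancel : ∀ w : List (Letter d), B ⊆ (sys hG).dom w →
        B ⊆ (sys hG).dom ((w ++ [fw (.push P)]) ++ [bw (.push P)]) →
        Rw (sys hG) Df R B ((w ++ [fw (.push P)]) ++ [bw (.push P)]) w := by
      intro w hw hdw
      rw [List.append_assoc] at hdw ⊢
      have hc := Rw.cancel_word C.laws (w := [fw (.push P)]) (C.laws.wimg_df (w := w) hB)
        (Sys.dom_append.1 (Sys.dom_append.1 hdw).2).1
      have h := Rw.front C.laws hB hw hc
      rw [List.append_nil] at h
      exact h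
    have mu0 : ∀ i : Letter d, Flat i → True ∧ (match i with
        | (.push _, true) => (1 : ℤ) | (.push _, false) => -1 | _ => 0) = 0 := by
      rintro ⟨a, b⟩ hi
      cases a with
      | push P' => exact absurd rfl (hi.2 P')
      | _ => exact ⟨trivial, by cases b <;> rfl⟩
    by_cases hP : P = .theta
    · subst hP
      obtain ⟨t₀, ht₀⟩ : ∃ t₀ : Outer d, toInner d t₀ = (l.map d.gen).prod := by
        refine ⟨x₀.h⁻¹ * p.h, ?_⟩
        have := hQth rfl
        simp only [hPth rfl] at this
        rw [map_mul, map_inv, ← this, inv_mul_cancel_left]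
      let φ : OGen d × Bool → List (Fin d.n) := fun a => iw hG (toInner d (OGen.sval a))
      have hval : ∀ o : List (OGen d × Bool), ((o.flatMap φ).map d.gen).prod =
          toInner d (o.map OGen.sval).prod := by
        intro o
        induction o with
        | nil => simp
        | cons a o ih => simp [φ, iw_prod, ← ih]
      let o₀ := ow hG t₀
      have e1 : outerW o₀ = o₀.flatMap fun a => [((Atom.outer a.1, a.2) : Letter d)] := by
        rw [outerW, ← List.flatMap_pure_eq_map]; rfl
      have e2 : innerW (o₀.flatMap φ) = o₀.flatMap fun a => innerW (φ a) := by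
        simp [innerW, List.map_flatMap]
      have dth : ∀ e : Set (Point d), e ⊆ (sys hG).dom [fw (.push .theta)] :=
        fun e z _ => ⟨_, Sys.run_singleton.2
          (show (z, (⟨.fin, .nil, false, .theta z.σ z.tag z.w z.g, toInner d z.h, 1⟩ : Point d))
            ∈ thetaG from rfl)⟩
      have hslide : Rw (sys hG) Df R B (outerW o₀ ++ [fw (.push .theta)])
          ([fw (.push .theta)] ++ innerW (o₀.flatMap φ)) := by
        rw [e1, e2]
        refine Rw.slide C.laws _ (fun a => innerW (φ a)) (fun a e' he' hd' => ?_) hB o₀ ?_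
        · refine C.use (small_le (by simp)) ?_ (sub_outer_theta a) he' hd'
          have := iw_length (hG := hG) (m := toInner d (OGen.sval a)) (Or.inr ⟨a, rfl⟩)
          simp [innerW]
          omega
        · rw [← e1]
          exact Sys.dom_append.2 ⟨dom_outerW o₀ B, dth _⟩
      have hl : Rw (sys hG) Df R B ([fw (.push .theta)] ++ innerW l)
          (outerW o₀ ++ [fw (.push .theta)]) := by
        refine (Rw.front C.laws hB (dth B) (inner_eq C (a := l) (b := o₀.flatMap φ) ?_
          hB₁df)).trans C.laws (Rw.symm C.laws hslide)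
        rw [hval, ow_prod, ht₀]
      have hl' := hl.back C.laws (b := [bw (.push .theta)]) hR₄.right
      refine ⟨outerW o₀, fun i hi => mu0 i (flat_outerW o₀ i hi),
        hR₄.trans C.laws (hl'.trans C.laws (hcancel _ (dom_outerW o₀ B) hl'.right))⟩
    · have hpast : Rw (sys hG) Df R B ([fw (.push P)] ++ innerW l)
          (innerW l ++ [fw (.push P)]) := by
        refine Rw.symm C.laws (innerW_past C _ (fun i => sub_inner_push i P hP) hB l ?_)
        refine Sys.dom_append.2 ⟨dom_innerW l B, ?_⟩
        rintro z ⟨z₀, hz₀, hzz⟩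
        rw [run_innerW] at hzz
        subst hzz
        exact push_dom_g hP (hdP hz₀) _
      have hl' := hpast.back C.laws (b := [bw (.push P)]) hR₄.right
      refine ⟨innerW l, fun i hi => mu0 i (flat_innerW l i hi),
        hR₄.trans C.laws (hl'.trans C.laws (hcancel _ (dom_innerW l B) hl'.right))⟩

/-- All loops are trivial once the flat ones are. -/
theorem allLoops_of_flat (h : FlatLoops hG Df R) : AllLoops hG Df R := by
  intro e w he hloop
  refine (outerHeight C).loop C.laws (fun e' t he' ht hl => ?_) he (fun _ _ => trivial) hloop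
  refine innerLoops C h he' (fun i hi P hP => ?_) hl
  obtain ⟨-, h0⟩ := ht i hi
  obtain ⟨a, b⟩ := i
  obtain rfl : a = .push P := hP
  cases b <;> simp [outerHeight] at h0

end Vale.Agent.P193.Core.Loops
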